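import Mathlib.Algebra.BigOperators.Ring.Finset
import Mathlib.Algebra.BigOperators.Field
import Mathlib.Algebra.Order.BigOperators.Group.Finset
import Mathlib.Analysis.Calculus.Deriv.Mul
import Mathlib.Analysis.Calculus.Deriv.Pow
import Mathlib.Analysis.Calculus.Deriv.Add
import Mathlib.Data.Fintype.Pi
import Mathlib.Data.Real.Basic
import Mathlib.Tactic.Ring
import Mathlib.Tactic.Linarith
import Mathlib.Tactic.FieldSimp

/-!
Fourier expansion on the discrete cube and its biased forms.
-/

namespace Vale.Agent.P047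

/-- The discrete cube, `true` standing for `1` and `false` for `-1`. -/
abbrev Cube (n : ℕ) := Fin n → Bool

/-- The sign of a Boolean. -/
def sgn (b : Bool) : ℝ := if b then 1 else -1

lemma sgn_mul_self (b : Bool) : sgn b * sgn b = 1 := by cases b <;> norm_num [sgn]

lemma sgn_not (b : Bool) : sgn (!b) = -sgn b := by cases b <;> norm_num [sgn]

variable {n : ℕ}

/-- The character of `S`. -/
def chi (S : Finset (Fin n)) (x : Cube n) : ℝ := ∏ i ∈ S, sgn (x i)

/-- The Fourier coefficient at `S`. -/
noncomputable def fhat (f : Cube n → ℝ) (S : Finset (Fin n)) : ℝ := (∑ x, f x * chi S x) / 2 ^ n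

/-- All Fourier coefficients above level `d` vanish. -/
def DegLE (f : Cube n → ℝ) (d : ℕ) : Prop := ∀ S : Finset (Fin n), d < S.card → fhat f S = 0

/-- The sum of the first-level coefficients. -/
noncomputable def level1 (f : Cube n → ℝ) : ℝ := ∑ i, fhat f {i}

/-- The expectation of `f` when every coordinate has mean `r`. -/
noncomputable def bias (f : Cube n → ℝ) (r : ℝ) : ℝ :=
  ∑ x, (∏ i, (1 + r * sgn (x i)) / 2) * f x

/-- The coefficient of `f` in the `r`-biased basis, divided by the norm squared of the basis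
function. -/
noncomputable def bcoef (f : Cube n → ℝ) (r : ℝ) (S : Finset (Fin n)) : ℝ :=
  (∑ x, f x * ((∏ i ∈ S, sgn (x i)) * ∏ i ∈ Sᶜ, (1 + r * sgn (x i)))) / 2 ^ n

lemma bcoef_empty (f : Cube n → ℝ) (r : ℝ) : bcoef f r ∅ = bias f r := by
  simp only [bcoef, bias, Finset.prod_empty, one_mul, Finset.compl_empty, Finset.sum_div]
  refine Finset.sum_congr rfl fun x _ => ?_
  rw [Finset.prod_div_distrib, Finset.prod_const, Finset.card_univ, Fintype.card_fin]
  ring

lemma bcoef_eq_sum (f : Cube n → ℝ) (r : ℝ) (S : Finset (Fin n)) :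
    bcoef f r S = ∑ T ∈ Sᶜ.powerset, r ^ T.card * fhat f (S ∪ T) := by
  simp only [bcoef, fhat, Finset.prod_one_add, Finset.mul_sum, Finset.sum_div]
  rw [Finset.sum_comm]
  refine Finset.sum_congr rfl fun T hT => Finset.sum_congr rfl fun x _ => ?_
  have hd : Disjoint S T :=
    Finset.disjoint_left.2 fun i hi hi' => Finset.mem_compl.1 (Finset.mem_powerset.1 hT hi') hi
  rw [Finset.prod_mul_distrib, Finset.prod_const, chi, Finset.prod_union hd]
  ring

lemma bcoef_eq_zero {f : Cube n → ℝ} {d : ℕ} (h : DegLE f d) (r : ℝ) {S : Finset (Fin n)}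
    (hS : d < S.card) : bcoef f r S = 0 := by
  rw [bcoef_eq_sum]
  exact Finset.sum_eq_zero fun T _ => by
    rw [h _ (hS.trans_le (Finset.card_le_card Finset.subset_union_left)), mul_zero]

lemma bias_eq_sum (f : Cube n → ℝ) (r : ℝ) : bias f r = ∑ T, r ^ T.card * fhat f T := by
  rw [← bcoef_empty, bcoef_eq_sum, Finset.compl_empty, Finset.powerset_univ]
  simp only [Finset.empty_union]

lemma hasDerivAt_bias (f : Cube n → ℝ) (r : ℝ) :
    HasDerivAt (bias f) (∑ i, bcoef f r {i}) r := by
  have hfun : bias f = fun t => ∑ T, t ^ T.card * fhat f T := funext (bias_eq_sum f)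
  rw [hfun]
  refine (HasDerivAt.fun_sum fun T _ => (hasDerivAt_pow T.card r).mul_const (fhat f T)).congr_deriv ?_
  simp only [bcoef_eq_sum]
  calc ∑ T : Finset (Fin n), (T.card : ℝ) * r ^ (T.card - 1) * fhat f T
      = ∑ T : Finset (Fin n), ∑ i ∈ T, r ^ (T.erase i).card * fhat f T := by
        refine Finset.sum_congr rfl fun T _ => ?_
        rw [Finset.sum_congr rfl fun i hi => by rw [Finset.card_erase_of_mem hi],
          Finset.sum_const, nsmul_eq_mul]
        ring
    _ = ∑ i, ∑ T ∈ Finset.univ.filter (fun T : Finset (Fin n) => i ∈ T),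
          r ^ (T.erase i).card * fhat f T :=
        Finset.sum_comm' (by simp)
    _ = _ := Finset.sum_congr rfl fun i _ => by
        refine Finset.sum_bij' (fun T _ => T.erase i) (fun T _ => insert i T) ?_ ?_ ?_ ?_ ?_
        · intro T _
          exact Finset.mem_powerset.2 fun j hj => Finset.mem_compl.2 fun h =>
            (Finset.mem_erase.1 hj).1 (Finset.mem_singleton.1 h)
        · intro T _
          simp
        · intro T hT
          exact Finset.insert_erase (Finset.mem_filter.1 hT).2
        · intro T hT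
          exact Finset.erase_insert fun h =>
            Finset.mem_compl.1 (Finset.mem_powerset.1 hT h) (Finset.mem_singleton_self i)
        · intro T hT
          rw [← Finset.insert_eq, Finset.insert_erase (Finset.mem_filter.1 hT).2]

lemma bias_zero_deriv (f : Cube n → ℝ) : ∑ i, bcoef f 0 {i} = level1 f := by
  refine Finset.sum_congr rfl fun i _ => ?_
  simp [bcoef, fhat, chi]

lemma weight_sum (r : ℝ) : ∑ x : Cube n, ∏ i, (1 + r * sgn (x i)) / 2 = 1 := by
  rw [← Fintype.prod_sum (κ := fun _ : Fin n => Bool) fun _ b => (1 + r * sgn b) / 2]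
  refine Finset.prod_eq_one fun i _ => ?_
  simp [sgn]
  ring

lemma weight_pos {r : ℝ} (h : -1 < r) (h' : r < 1) (x : Cube n) :
    0 < ∏ i, (1 + r * sgn (x i)) / 2 :=
  Finset.prod_pos fun i _ => by cases x i <;> simp [sgn] <;> linarith

/-- Parseval in the biased basis. -/
lemma parseval {r : ℝ} (h : Cube n → ℝ) :
    ∑ S : Finset (Fin n), (1 - r ^ 2) ^ S.card * bcoef h r S ^ 2
      = ∑ x, (∏ i, (1 + r * sgn (x i)) / 2) * h x ^ 2 := by
  classical
  have key : ∀ x y : Cube n,
      ∏ i, ((1 - r ^ 2) * (sgn (x i) * sgn (y i)) + (1 + r * sgn (x i)) * (1 + r * sgn (y i)))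
        = if x = y then 2 ^ n * ∏ i, (1 + r * sgn (x i)) else 0 := by
    intro x y
    split_ifs with hxy
    · subst hxy
      rw [show (2 : ℝ) ^ n = ∏ _i : Fin n, (2 : ℝ) by simp, ← Finset.prod_mul_distrib]
      refine Finset.prod_congr rfl fun i _ => ?_
      cases x i <;> simp [sgn] <;> ring
    · obtain ⟨i, hi⟩ := Function.ne_iff.1 hxy
      refine Finset.prod_eq_zero (Finset.mem_univ i) ?_
      cases hx : x i <;> cases hy : y i <;> simp_all [sgn] <;> ring
  calc ∑ S : Finset (Fin n), (1 - r ^ 2) ^ S.card * bcoef h r S ^ 2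
      = (∑ x, ∑ y, h x * h y * ∑ S ∈ (Finset.univ : Finset (Fin n)).powerset,
          (∏ i ∈ S, (1 - r ^ 2) * (sgn (x i) * sgn (y i))) *
            ∏ i ∈ Finset.univ \ S, (1 + r * sgn (x i)) * (1 + r * sgn (y i))) / 4 ^ n := by
        simp only [Finset.powerset_univ, Finset.mul_sum, ← Finset.compl_eq_univ_sdiff, bcoef,
          sq (∑ _ ∈ _, _), Finset.sum_mul, Finset.sum_div]
        rw [Finset.sum_comm]
        refine Finset.sum_congr rfl fun x _ => ?_
        rw [Finset.sum_comm]
        refine Finset.sum_congr rfl fun y _ => Finset.sum_congr rfl fun S _ => ?_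
        simp only [Finset.prod_mul_distrib, Finset.prod_const]
        rw [show (4 : ℝ) ^ n = ((2 : ℝ) ^ n) ^ 2 by rw [← pow_mul, mul_comm, pow_mul]; norm_num]
        ring
    _ = _ := by
        simp only [← Finset.prod_add, key, mul_ite, mul_zero, Finset.sum_ite_eq, Finset.mem_univ,
          if_true, Finset.sum_div, Finset.prod_div_distrib, Finset.prod_const, Finset.card_univ,
          Fintype.card_fin]
        refine Finset.sum_congr rfl fun x _ => ?_
        rw [show (4 : ℝ) ^ n = (2 : ℝ) ^ n * 2 ^ n by rw [← mul_pow]; norm_num]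
        field_simp

end Vale.Agent.P047
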