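import Mathlib.Analysis.SpecialFunctions.Trigonometric.Deriv
import Mathlib.Analysis.SpecialFunctions.ExpDeriv
import Mathlib.Analysis.SpecialFunctions.Trigonometric.Basic
import Mathlib.Analysis.SpecialFunctions.Trigonometric.Complex
import Mathlib.Analysis.SpecialFunctions.Complex.Log
import Mathlib.Algebra.Field.GeomSum
import Mathlib.Algebra.BigOperators.Intervals

/-!
A quadrature formula for the derivative at `0` of trigonometric polynomials.
-/

namespace Vale.Agent.P047

open Complex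

/-- The nodes: zeros of `cos (d t)` in a period. -/
noncomputable def node (d k : ℕ) : ℝ := (2 * k + 1) * Real.pi / (2 * d)

/-- The weights. -/
noncomputable def wgt (d k : ℕ) : ℝ := (-1) ^ k / (4 * d * Real.sin (node d k / 2) ^ 2)

/-- The complex nodes. -/
noncomputable def cnode (d k : ℕ) : ℂ := exp (node d k * I)

variable {d : ℕ}

lemma sin_node_pos (hd : 0 < d) {k : ℕ} (hk : k < 2 * d) : 0 < Real.sin (node d k / 2) := by
  have hd' : (0 : ℝ) < d := by exact_mod_cast hd
  have hk' : (2 * k + 1 : ℝ) < 4 * d := by exact_mod_cast (by omega : 2 * k + 1 < 4 * d)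
  refine Real.sin_pos_of_pos_of_lt_pi (by unfold node; positivity) ?_
  rw [node, div_div, div_lt_iff₀ (by positivity)]
  nlinarith [Real.pi_pos]

lemma cnode_pow (hd : 0 < d) (k : ℕ) : cnode d k ^ d = (-1) ^ k * I := by
  have hd' : (d : ℂ) ≠ 0 := by exact_mod_cast hd.ne'
  rw [cnode, ← exp_nat_mul,
    show (d : ℂ) * (node d k * I) = (k : ℕ) * (Real.pi * I) + Real.pi / 2 * I by
      simp only [node]; push_cast; field_simp,
    exp_add, exp_nat_mul, exp_pi_mul_I, exp_pi_div_two_mul_I]

lemma cnode_pow_two_mul (hd : 0 < d) (k : ℕ) : cnode d k ^ (2 * d) = -1 := by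
  rw [mul_comm, pow_mul, cnode_pow hd, mul_pow, ← pow_mul, mul_comm k, pow_mul, neg_one_sq,
    one_pow, one_mul, I_sq]

lemma cnode_sub_one_sq (d k : ℕ) :
    (cnode d k - 1) ^ 2 = -4 * (Real.sin (node d k / 2) : ℂ) ^ 2 * cnode d k := by
  have h1 : cnode d k = exp ((node d k / 2 : ℝ) * I) ^ 2 := by
    rw [cnode, ← exp_nat_mul]; push_cast; ring_nf
  rw [h1, exp_mul_I]
  set s := Complex.sin ((node d k / 2 : ℝ) : ℂ)
  set c := Complex.cos ((node d k / 2 : ℝ) : ℂ)
  have h2 : c ^ 2 + s ^ 2 = 1 := Complex.cos_sq_add_sin_sq _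
  rw [Complex.ofReal_sin]
  have h3 : (c + s * I) ^ 2 - 1 = 2 * s * I * (c + s * I) := by
    linear_combination h2 - s ^ 2 * I_sq
  rw [h3, mul_pow, mul_pow, mul_pow, I_sq]
  ring

lemma cnode_ne_one (hd : 0 < d) {k : ℕ} (hk : k < 2 * d) : cnode d k - 1 ≠ 0 := by
  intro h
  have h2 := cnode_sub_one_sq d k
  rw [h, zero_pow two_ne_zero] at h2
  have hz : cnode d k ≠ 0 := exp_ne_zero _
  simp [hz, (sin_node_pos hd hk).ne', -Complex.ofReal_sin] at h2

lemma wgt_eq (hd : 0 < d) {k : ℕ} (hk : k < 2 * d) :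
    (wgt d k : ℂ) = I / d * (cnode d k ^ (d + 1) / (cnode d k - 1) ^ 2) := by
  have hd' : (d : ℂ) ≠ 0 := by exact_mod_cast hd.ne'
  have hs : (Real.sin (node d k / 2) : ℂ) ≠ 0 := by exact_mod_cast (sin_node_pos hd hk).ne'
  have hz : cnode d k ≠ 0 := exp_ne_zero _
  rw [pow_succ, cnode_pow hd, cnode_sub_one_sq, wgt]
  push_cast [-Complex.ofReal_sin]
  field_simp
  rw [I_sq]
  ring

lemma sum_cnode_pow (hd : 0 < d) {m : ℕ} (hm : 0 < m) (hm' : m < 2 * d) :
    ∑ k ∈ Finset.range (2 * d), cnode d k ^ m = 0 := by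
  have hd' : (d : ℂ) ≠ 0 := by exact_mod_cast hd.ne'
  set q := exp (2 * Real.pi * I * (m / (2 * d : ℕ) : ℂ)) with hq
  have hpow : ∀ k, cnode d k ^ m = exp (Real.pi / (2 * d) * I) ^ m * q ^ k := by
    intro k
    rw [hq, cnode, ← exp_nat_mul, ← exp_nat_mul, ← exp_nat_mul, ← exp_add]
    congr 1
    simp only [node]; push_cast; field_simp; ring
  have hq1 : q ≠ 1 := by
    rw [hq, Ne, exp_eq_one_iff]
    rintro ⟨j, hj⟩
    have h1 : (m : ℂ) = ((j * (2 * d) : ℤ) : ℂ) := by
      push_cast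
      push_cast at hj
      field_simp at hj
      linear_combination hj
    have h2 : (m : ℤ) = j * (2 * d) := by exact_mod_cast h1
    rcases le_or_gt j 0 with h | h
    · nlinarith
    · nlinarith
  have hqN : q ^ (2 * d) = 1 := by
    rw [hq, ← exp_nat_mul, exp_eq_one_iff]
    exact ⟨m, by push_cast; field_simp⟩
  simp only [hpow, ← Finset.mul_sum]
  rw [geom_sum_eq hq1, hqN, sub_self, zero_div, mul_zero]

/-- The power sums against the kernel `1 / (z - 1) ^ 2`. -/
noncomputable def ksum (d m : ℕ) : ℂ :=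
  ∑ k ∈ Finset.range (2 * d), cnode d k ^ m / (cnode d k - 1) ^ 2

lemma cnode_reflect (hd : 0 < d) {k : ℕ} (hk : k < 2 * d) :
    cnode d (2 * d - 1 - k) = (cnode d k)⁻¹ := by
  have hd' : (d : ℂ) ≠ 0 := by exact_mod_cast hd.ne'
  rw [cnode, cnode, ← exp_neg, exp_eq_exp_iff_exists_int]
  refine ⟨1, ?_⟩
  simp only [node]
  rw [Nat.cast_sub (by omega : k ≤ 2 * d - 1), Nat.cast_sub (by omega : 1 ≤ 2 * d)]
  push_cast; field_simp; ring

lemma ksum_eq (hd : 0 < d) {m : ℕ} (hm : 1 ≤ m) (hm' : m ≤ 2 * d + 1) :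
    ksum d m = d * ((m : ℂ) - 1 - d) := by
  have hstep : ksum d 2 - ksum d 1 = d := by
    have h1 : ksum d 2 - ksum d 1
        = ∑ k ∈ Finset.range (2 * d), (1 + (cnode d k - 1)⁻¹) := by
      rw [ksum, ksum, ← Finset.sum_sub_distrib]
      refine Finset.sum_congr rfl fun k hk => ?_
      have := cnode_ne_one hd (Finset.mem_range.1 hk)
      field_simp
      ring
    have h2 : ∑ k ∈ Finset.range (2 * d), (cnode d k - 1)⁻¹
        = ∑ k ∈ Finset.range (2 * d), (-1 - (cnode d k - 1)⁻¹) := by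
      rw [← Finset.sum_range_reflect]
      refine Finset.sum_congr rfl fun k hk => ?_
      rw [cnode_reflect hd (Finset.mem_range.1 hk)]
      have := cnode_ne_one hd (Finset.mem_range.1 hk)
      have hz : cnode d k ≠ 0 := exp_ne_zero _
      have h3 : (cnode d k)⁻¹ - 1 ≠ 0 := by
        rw [sub_ne_zero, ne_eq, inv_eq_one]; exact sub_ne_zero.1 this
      have h4 : 1 - cnode d k ≠ 0 := by rw [← neg_sub]; exact neg_ne_zero.2 this
      field_simp
      ring
    rw [Finset.sum_sub_distrib] at h2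
    rw [h1, Finset.sum_add_distrib]
    simp only [Finset.sum_const, Finset.card_range, nsmul_eq_mul] at h2 ⊢
    push_cast at h2 ⊢
    linear_combination (1 / 2 : ℂ) * h2
  have hlin : ∀ m, m ≤ 2 * d → ksum d (m + 1) = ksum d 1 + m * d := by
    intro m
    induction m using Nat.twoStepInduction with
    | zero => simp
    | one => intro _; push_cast; linear_combination hstep
    | more a ih1 ih2 =>
      intro h
      have hs := sum_cnode_pow hd (m := a + 1) (by omega) (by omega)
      have hrec : ksum d (a + 3) - 2 * ksum d (a + 2) + ksum d (a + 1) = 0 := by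
        rw [← hs, ksum, ksum, ksum, Finset.mul_sum, ← Finset.sum_sub_distrib, ← Finset.sum_add_distrib]
        refine Finset.sum_congr rfl fun k hk => ?_
        have := cnode_ne_one hd (Finset.mem_range.1 hk)
        field_simp
        ring
      have e1 := ih1 (by omega)
      have e2 := ih2 (by omega)
      push_cast at e1 e2 ⊢
      linear_combination hrec + 2 * e2 - e1
  have hanti : ksum d (2 * d + 1) = -ksum d 1 := by
    rw [ksum, ksum, ← Finset.sum_neg_distrib]
    refine Finset.sum_congr rfl fun k _ => ?_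
    rw [pow_succ, cnode_pow_two_mul hd, pow_one]
    ring
  have hA : ksum d 1 = -(d : ℂ) * d := by
    have := hlin (2 * d) le_rfl
    rw [hanti] at this
    push_cast at this
    linear_combination (-1 / 2 : ℂ) * this
  obtain ⟨p, rfl⟩ := Nat.exists_eq_add_of_le' hm
  rw [hlin p (by omega), hA]
  push_cast; ring

/-- The quadrature formula on exponentials. -/
lemma quad_exp (hd : 0 < d) {j : ℤ} (hj : -(d : ℤ) ≤ j) (hj' : j ≤ d) :
    ∑ k ∈ Finset.range (2 * d), (wgt d k : ℂ) * exp (j * node d k * I) = j * I := by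
  obtain ⟨m, hm⟩ : ∃ m : ℕ, (m : ℤ) = d + 1 + j := ⟨(d + 1 + j).toNat, by omega⟩
  have hd' : (d : ℂ) ≠ 0 := by exact_mod_cast hd.ne'
  have hjm : (j : ℂ) = (m : ℂ) - 1 - d := by
    have : (j : ℤ) = (m : ℤ) - 1 - d := by omega
    rw [this]; push_cast; ring
  calc ∑ k ∈ Finset.range (2 * d), (wgt d k : ℂ) * exp (j * node d k * I)
      = I / d * ksum d m := by
        rw [ksum, Finset.mul_sum]
        refine Finset.sum_congr rfl fun k hk => ?_
        have hz : exp (j * node d k * I) * cnode d k ^ (d + 1) = cnode d k ^ m := by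
          rw [cnode, ← exp_nat_mul, ← exp_nat_mul, ← exp_add]
          congr 1
          rw [hjm]; push_cast; ring
        rw [wgt_eq hd (Finset.mem_range.1 hk), ← hz]
        ring
    _ = _ := by
        rw [ksum_eq hd (by omega) (by omega), hjm]
        field_simp

/-- The absolute weights sum to `d`. -/
lemma sum_abs_wgt (hd : 0 < d) : ∑ k ∈ Finset.range (2 * d), |wgt d k| = d := by
  have h := congrArg Complex.im (quad_exp hd (j := d) (by omega) le_rfl)
  rw [Complex.im_sum] at h
  simp only [Complex.mul_im, Complex.ofReal_im, zero_mul, add_zero, Complex.ofReal_re,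
    Int.cast_natCast, Complex.natCast_re, Complex.natCast_im, Complex.I_im, Complex.I_re,
    mul_one, mul_zero] at h
  rw [← h]
  refine Finset.sum_congr rfl fun k hk => ?_
  have e : exp ((d : ℂ) * node d k * I) = ((-1 : ℝ) ^ k : ℝ) * I := by
    rw [mul_assoc, exp_nat_mul]; push_cast; exact cnode_pow hd k
  rw [e, Complex.mul_im, Complex.ofReal_re, Complex.ofReal_im, Complex.I_im, Complex.I_re, wgt,
    abs_div, abs_pow, abs_neg, abs_one, one_pow,
    abs_of_pos (by have := sin_node_pos hd (Finset.mem_range.1 hk); positivity)]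
  rw [mul_one, mul_zero, add_zero, div_mul_eq_mul_div, ← mul_pow]
  norm_num

/-- The functions satisfying the quadrature formula. -/
noncomputable def quad (d : ℕ) (F : ℝ → ℂ) : ℂ :=
  ∑ k ∈ Finset.range (2 * d), (wgt d k : ℂ) * F (node d k)

lemma hasDerivAt_exp_quad (hd : 0 < d) {j : ℤ} (hj : -(d : ℤ) ≤ j) (hj' : j ≤ d) :
    HasDerivAt (fun t : ℝ => exp (j * t * I)) (quad d fun t => exp (j * t * I)) 0 := by
  rw [quad, quad_exp hd hj hj']
  have h := ((((hasDerivAt_id (0 : ℝ)).ofReal_comp).const_mul (j : ℂ)).mul_const I).cexp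
  simpa using h

lemma hasDerivAt_sin_pow_quad (hd : 0 < d) {m : ℕ} (hm : m ≤ d) :
    HasDerivAt (fun t : ℝ => (Real.sin t : ℂ) ^ m)
      (quad d fun t => (Real.sin t : ℂ) ^ m) 0 := by
  let c : ℕ → ℂ := fun l => (I / 2) ^ m * ((-1) ^ (m - l) * (m.choose l))
  let j : ℕ → ℤ := fun l => (m : ℤ) - 2 * l
  have hfun : (fun t : ℝ => (Real.sin t : ℂ) ^ m)
      = fun t : ℝ => ∑ l ∈ Finset.range (m + 1), c l * exp (j l * t * I) := by
    funext t
    have hs : (Real.sin t : ℂ) = I / 2 * (exp (-t * I) + -exp (t * I)) := by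
      rw [Complex.ofReal_sin, Complex.sin]; ring
    rw [hs, mul_pow, add_pow, Finset.mul_sum]
    refine Finset.sum_congr rfl fun l hl => ?_
    have hl' : l ≤ m := Nat.lt_succ_iff.1 (Finset.mem_range.1 hl)
    have e : exp (j l * t * I) = exp (-t * I) ^ l * exp (t * I) ^ (m - l) := by
      rw [← exp_nat_mul, ← exp_nat_mul, ← exp_add]
      congr 1
      simp only [j]
      rw [Nat.cast_sub hl']; push_cast; ring
    rw [e, neg_pow]
    simp only [c]; ring
  have hq : quad d (fun t => (Real.sin t : ℂ) ^ m)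
      = ∑ l ∈ Finset.range (m + 1), c l * quad d (fun t => exp (j l * t * I)) := by
    rw [hfun]
    simp only [quad, Finset.mul_sum]
    rw [Finset.sum_comm]
    exact Finset.sum_congr rfl fun l _ => Finset.sum_congr rfl fun k _ => by ring
  rw [hq, hfun]
  refine HasDerivAt.fun_sum fun l hl => HasDerivAt.const_mul _ ?_
  have hl' : l ≤ m := Nat.lt_succ_iff.1 (Finset.mem_range.1 hl)
  exact hasDerivAt_exp_quad hd (by simp only [j]; omega) (by simp only [j]; omega)

/-- Quadrature formula for the derivative at `0` of a polynomial of degree at most `d`. -/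
lemma deriv_zero_eq (hd : 0 < d) (a : ℕ → ℝ) {P : ℝ → ℝ} {P' : ℝ}
    (hP : ∀ t, P t = ∑ m ∈ Finset.range (d + 1), a m * t ^ m) (hP' : HasDerivAt P P' 0) :
    P' = ∑ k ∈ Finset.range (2 * d), wgt d k * P (Real.sin (node d k)) := by
  have h1 : HasDerivAt (fun t : ℝ => ((P (Real.sin t) : ℝ) : ℂ)) ((P' : ℝ) : ℂ) 0 := by
    have := hP'.comp_of_eq 0 (Real.hasDerivAt_sin 0) (by simp)
    simpa using this.ofReal_comp
  have hfun : (fun t : ℝ => ((P (Real.sin t) : ℝ) : ℂ))
      = fun t : ℝ => ∑ m ∈ Finset.range (d + 1), (a m : ℂ) * (Real.sin t : ℂ) ^ m := by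
    funext t
    rw [hP]
    push_cast
    rfl
  have h2 : HasDerivAt (fun t : ℝ => ((P (Real.sin t) : ℝ) : ℂ))
      (∑ m ∈ Finset.range (d + 1), (a m : ℂ) * quad d fun t => (Real.sin t : ℂ) ^ m) 0 := by
    rw [hfun]
    exact HasDerivAt.fun_sum fun m hm => (hasDerivAt_sin_pow_quad hd
      (Nat.lt_succ_iff.1 (Finset.mem_range.1 hm))).const_mul _
  apply Complex.ofReal_injective
  rw [h1.unique h2]
  simp only [quad, Finset.mul_sum]
  rw [Finset.sum_comm]
  push_cast
  refine Finset.sum_congr rfl fun k _ => ?_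
  rw [hP]
  push_cast
  rw [Finset.mul_sum]
  exact Finset.sum_congr rfl fun m _ => by ring

end Vale.Agent.P047
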