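import Vale.Agent.P047.Influence
import Vale.Agent.P047.Nodes
import Mathlib.Analysis.SpecialFunctions.Log.Deriv
import Mathlib.Analysis.Calculus.Deriv.MeanValue
import Mathlib.Analysis.Real.Pi.Bounds
import Mathlib.Analysis.SpecialFunctions.Trigonometric.Bounds

/-!
A linear upper bound with constant below one for the level-one sum of a Boolean function.
-/

namespace Vale.Agent.P047

open Real

variable {n : ℕ}

/-- The algebraic end of the comparison. -/
lemma diff_le_of_ratio {p q R : ℝ} (hp : |p| < 1) (hq : |q| < 1) (hR : 1 ≤ R)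
    (h : (1 + p) * (1 - q) ≤ R ^ 2 * ((1 - p) * (1 + q))) :
    p - q ≤ 2 * ((R - 1) / (R + 1)) := by
  obtain ⟨hp1, hp2⟩ := abs_lt.1 hp
  obtain ⟨hq1, hq2⟩ := abs_lt.1 hq
  rw [← mul_div_assoc, le_div_iff₀ (by linarith)]
  set a := 1 - p
  set b := 1 + q
  have hab : p - q = 2 - (a + b) := by simp only [a, b]; ring
  rw [hab]
  rw [show 1 + p = 2 - a by simp only [a]; ring, show 1 - q = 2 - b by simp only [b]; ring] at h
  have ha : 0 < a := by simp only [a]; linarith
  have hb : 0 < b := by simp only [b]; linarith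
  by_contra hcon
  push Not at hcon
  have h1 : (R + 1) * (a + b) < 4 := by linarith
  have h2 : 0 < (R - 1) * (a + b) + 4 := by
    have := mul_nonneg (sub_nonneg.2 hR) (add_pos ha hb).le
    linarith
  have h3 : 0 ≤ (R ^ 2 - 1) * (a - b) ^ 2 := mul_nonneg (by nlinarith) (sq_nonneg _)
  nlinarith [mul_pos h2 (sub_pos.2 h1)]

/-- The biased mean cannot go from `-1` to `1` between the two central nodes. -/
lemma bias_diff_le {f : Cube n → ℝ} {d : ℕ} (hd : DegLE f d) (hf : ∀ x, f x = 1 ∨ f x = -1)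
    (h2 : 2 ≤ d) (hne : level1 f ≠ 0) :
    bias f (Real.sin (π / (2 * d))) - bias f (-Real.sin (π / (2 * d))) ≤ 2 * (2 * √2 / 3) := by
  have hd2 : (2 : ℝ) ≤ d := by exact_mod_cast h2
  have hlt : ∀ r : ℝ, -1 < r → r < 1 → |bias f r| < 1 := fun r h h' =>
    lt_of_le_of_ne (abs_bias_le hf h.le h'.le) fun he => hne (level1_of_extreme hf h h' he)
  set I := Set.Icc (-(π / 4)) (π / 4)
  have hπ := Real.pi_pos
  let φ : ℝ → ℝ := fun t => 2 / d * t
  have hφ : ∀ t ∈ I, |φ t| ≤ |t| ∧ φ t ∈ Set.Ioo (-(π / 2)) (π / 2) := by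
    intro t ht
    have h1 : |φ t| ≤ |t| := by
      rw [abs_mul, abs_of_nonneg (by positivity : (0 : ℝ) ≤ 2 / d)]
      exact mul_le_of_le_one_left (abs_nonneg t) ((div_le_one (by linarith)).2 hd2)
    have h2 : |t| ≤ π / 4 := abs_le.2 ⟨ht.1, ht.2⟩
    exact ⟨h1, abs_lt.1 (by linarith)⟩
  have hsin : ∀ s ∈ Set.Ioo (-(π / 2)) (π / 2), -1 < sin s ∧ sin s < 1 := by
    intro s hs
    have hc := Real.cos_pos_of_mem_Ioo hs
    have := Real.sin_sq_add_cos_sq s
    constructor <;> nlinarith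
  let g : ℝ → ℝ := fun t => bias f (sin (φ t))
  have hg : ∀ t ∈ I, -1 < g t ∧ g t < 1 := fun t ht => by
    obtain ⟨h1, h2⟩ := hsin _ (hφ t ht).2
    exact abs_lt.1 (hlt _ h1 h2)
  let Θ : ℝ → ℝ := fun t =>
    (log (1 + g t) - log (1 - g t)) - 2 * (log (1 + sin t) - log (1 - sin t))
  have hderiv : ∀ t ∈ I, ∃ D : ℝ, HasDerivAt Θ D t ∧ D ≤ 0 := by
    intro t ht
    obtain ⟨h1, h2⟩ := hφ t ht
    obtain ⟨hs1, hs2⟩ := hsin _ h2
    set B := ∑ i, bcoef f (sin (φ t)) {i}
    have hgd : HasDerivAt g (B * (cos (φ t) * (2 / d))) t := by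
      have h3 : HasDerivAt φ (2 / d) t := by simpa [φ] using (hasDerivAt_id t).const_mul (2 / d : ℝ)
      exact (hasDerivAt_bias f _).comp t ((Real.hasDerivAt_sin _).comp t h3)
    obtain ⟨hg1, hg2⟩ := hg t ht
    have ht' : t ∈ Set.Ioo (-(π / 2)) (π / 2) := ⟨by linarith [ht.1], by linarith [ht.2]⟩
    obtain ⟨ht1, ht2⟩ := hsin t ht'
    have e1 := ((hgd.const_add 1).log (by linarith)).sub ((hgd.const_sub 1).log (by linarith))
    have e2 := ((((Real.hasDerivAt_sin t).const_add 1).log (by linarith)).sub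
      (((Real.hasDerivAt_sin t).const_sub 1).log (by linarith))).const_mul 2
    refine ⟨_, e1.sub e2, ?_⟩
    have hct : 0 < cos t := Real.cos_pos_of_mem_Ioo ht'
    have hcφ : cos t ≤ cos (φ t) := by
      rw [← Real.cos_abs t, ← Real.cos_abs (φ t)]
      exact Real.cos_le_cos_of_nonneg_of_le_pi (abs_nonneg _)
        (by have := abs_le.2 ⟨ht.1, ht.2⟩; linarith) h1
    have hkey := deriv_bias_le hd hf hs1 hs2
    rw [show bias f (sin (φ t)) = g t from rfl,
      show 1 - sin (φ t) ^ 2 = cos (φ t) ^ 2 by rw [← Real.cos_sq'], show ∑ i, _ = B from rfl] at hkey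
    have hc : 0 < cos (φ t) := hct.trans_le hcφ
    have hA : 0 < 1 - g t ^ 2 := by nlinarith
    have hd0 : (0 : ℝ) < d := by linarith
    have hq : B * (cos (φ t) * (2 / d)) / (1 - g t ^ 2) ≤ 2 / cos t := by
      calc B * (cos (φ t) * (2 / d)) / (1 - g t ^ 2)
          = 2 * (cos (φ t) ^ 2 * B) / (d * (1 - g t ^ 2) * cos (φ t)) := by field_simp
        _ ≤ 2 * (d * (1 - g t ^ 2)) / (d * (1 - g t ^ 2) * cos (φ t)) := by gcongr
        _ = 2 / cos (φ t) := by field_simp
        _ ≤ _ := by gcongr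
    have e3 : B * (cos (φ t) * (2 / d)) / (1 + g t) - -(B * (cos (φ t) * (2 / d))) / (1 - g t)
        = 2 * (B * (cos (φ t) * (2 / d)) / (1 - g t ^ 2)) := by
      have : 1 + g t ≠ 0 := by linarith
      have : 1 - g t ≠ 0 := by linarith
      field_simp
      ring
    have e4 : cos t / (1 + sin t) - -cos t / (1 - sin t) = 2 / cos t := by
      have : 1 + sin t ≠ 0 := by linarith
      have : 1 - sin t ≠ 0 := by linarith
      field_simp
      linear_combination 2 * Real.sin_sq_add_cos_sq t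
    rw [e3, e4]
    linarith
  choose! D hD hD0 using hderiv
  have hanti : AntitoneOn Θ I := by
    refine antitoneOn_of_deriv_nonpos (convex_Icc _ _)
      (fun t ht => (hD t ht).continuousAt.continuousWithinAt)
      (fun t ht => (hD t (interior_subset ht)).differentiableAt.differentiableWithinAt)
      fun t ht => ?_
    rw [(hD t (interior_subset ht)).deriv]
    exact hD0 t (interior_subset ht)
  have hm : -(π / 4) ∈ I := Set.left_mem_Icc.2 (by linarith)
  have hp : π / 4 ∈ I := Set.right_mem_Icc.2 (by linarith)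
  have hmain := hanti hm hp (by linarith : -(π / 4) ≤ π / 4)
  have hφp : φ (π / 4) = π / (2 * d) := by simp only [φ]; field_simp; ring
  have hφm : φ (-(π / 4)) = -(π / (2 * d)) := by simp only [φ]; field_simp; ring
  simp only [Θ, g, hφp, hφm, Real.sin_neg, Real.sin_pi_div_four] at hmain
  set P := bias f (sin (π / (2 * d))) with hP
  set Q := bias f (-sin (π / (2 * d))) with hQ
  obtain ⟨hP1, hP2⟩ : -1 < P ∧ P < 1 := by simpa [g, hφp] using hg _ hp
  obtain ⟨hQ1, hQ2⟩ : -1 < Q ∧ Q < 1 := by simpa [g, hφm, Real.sin_neg] using hg _ hm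
  have hs : √2 ^ 2 = 2 := Real.sq_sqrt (by norm_num)
  have hs0 : (0 : ℝ) ≤ √2 := Real.sqrt_nonneg _
  have hs2 : √2 < 3 / 2 := by nlinarith
  set R : ℝ := ((1 + √2 / 2) / (1 - √2 / 2)) ^ 2 with hR
  have hratio : (1 + P) * (1 - Q) ≤ R ^ 2 * ((1 - P) * (1 + Q)) := by
    have hden : 0 < 1 - √2 / 2 := by linarith
    rw [← log_le_log_iff (mul_pos (by linarith) (by linarith))
      (mul_pos (by rw [hR]; positivity) (mul_pos (by linarith) (by linarith))),
      log_mul (by linarith) (by linarith),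
      log_mul (by rw [hR]; positivity) (mul_ne_zero (by linarith) (by linarith)),
      log_mul (by linarith) (by linarith), hR, log_pow, log_pow,
      log_div (by positivity) hden.ne']
    rw [sub_neg_eq_add (a := (1 : ℝ)) (b := √2 / 2), ← sub_eq_add_neg (1 : ℝ) (√2 / 2)] at hmain
    push_cast
    linarith
  have hR1 : 1 ≤ R := by
    rw [hR]
    exact one_le_pow₀ ((one_le_div (by linarith)).2 (by linarith))
  refine (diff_le_of_ratio (abs_lt.2 ⟨hP1, hP2⟩) (abs_lt.2 ⟨hQ1, hQ2⟩) hR1 hratio).trans_eq ?_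
  rw [hR, show (1 + √2 / 2) / (1 - √2 / 2) = 3 + 2 * √2 by
    rw [div_eq_iff (by linarith : 1 - √2 / 2 ≠ 0)]; linear_combination hs]
  congr 1
  rw [div_eq_div_iff (by positivity) (by norm_num)]
  linear_combination (-12 - 8 * √2) * hs

/-- For a Boolean function of degree at most `d`, `2 ≤ d`, the level-one sum is at most
`21 / 22 * d`. -/
theorem level1_le {f : Cube n → ℝ} {d : ℕ} (hd : DegLE f d) (hf : ∀ x, f x = 1 ∨ f x = -1)
    (h2 : 2 ≤ d) : level1 f ≤ 21 / 22 * d := by
  classical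
  have hd2 : (2 : ℝ) ≤ d := by exact_mod_cast h2
  by_cases hne : level1 f = 0
  · rw [hne]; positivity
  have hpoly : ∀ t, bias f t = ∑ m ∈ Finset.range (d + 1),
      (∑ T : Finset (Fin n), if T.card = m then fhat f T else 0) * t ^ m := by
    intro t
    rw [bias_eq_sum]
    simp only [Finset.sum_mul]
    rw [Finset.sum_comm]
    refine Finset.sum_congr rfl fun T _ => ?_
    simp only [ite_mul, zero_mul, Finset.sum_ite_eq, Finset.mem_range]
    split_ifs with h
    · ring
    · rw [hd T (by omega), mul_zero]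
  have hd0 : 0 < d := by omega
  have hS : level1 f
      = ∑ k ∈ Finset.range (2 * d), wgt d k * bias f (Real.sin (node d k)) := by
    refine deriv_zero_eq hd0 _ hpoly ?_
    rw [← bias_zero_deriv]
    exact hasDerivAt_bias f 0
  set L := 2 * d - 1 with hL
  have hLn : node d L = 2 * π - π / (2 * d) := by
    rw [node, hL, Nat.cast_sub (by omega)]; push_cast; field_simp; ring
  have h0n : node d 0 = π / (2 * d) := by rw [node]; push_cast; ring
  set w := 1 / (4 * (d : ℝ) * Real.sin (π / (2 * d) / 2) ^ 2) with hw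
  have hw0 : wgt d 0 = w := by rw [wgt, h0n, pow_zero, hw]
  have hwL : wgt d L = -w := by
    have hodd : (-1 : ℝ) ^ L = -1 := Odd.neg_one_pow ⟨d - 1, by omega⟩
    rw [wgt, hLn, hodd, sub_div, mul_div_cancel_left₀ π two_ne_zero, Real.sin_pi_sub, hw,
      neg_div]
  have hsmall : 0 < Real.sin (π / (2 * d) / 2) := by
    have := sin_node_pos hd0 (k := 0) (by omega)
    rwa [h0n] at this
  have hwpos : 0 < w := by positivity
  have hsum := sum_abs_wgt hd0
  set Z := Finset.range (2 * d) \ {0, L}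
  have hsub : ({0, L} : Finset ℕ) ⊆ Finset.range (2 * d) := by
    intro k hk
    rw [Finset.mem_insert, Finset.mem_singleton] at hk
    exact Finset.mem_range.2 (by omega)
  have hne' : (0 : ℕ) ≠ L := by omega
  rw [← Finset.sum_sdiff hsub, Finset.sum_pair hne', hw0, hwL, abs_neg, abs_of_pos hwpos] at hsum
  rw [← Finset.sum_sdiff hsub, Finset.sum_pair hne', hw0, hwL, h0n, hLn, Real.sin_two_pi_sub]
    at hS
  have hrest : ∑ k ∈ Z, wgt d k * bias f (Real.sin (node d k)) ≤ ∑ k ∈ Z, |wgt d k| :=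
    Finset.sum_le_sum fun k _ => (le_abs_self _).trans (by
      rw [abs_mul]
      exact mul_le_of_le_one_right (abs_nonneg _)
        (abs_bias_le hf (Real.neg_one_le_sin _) (Real.sin_le_one _)))
  have hdiff := bias_diff_le hd hf h2 hne
  have hwlow : 4 * (d : ℝ) / π ^ 2 ≤ w := by
    have h1 : Real.sin (π / (2 * d) / 2) ≤ π / (2 * d) / 2 := Real.sin_le (by positivity)
    rw [hw, div_le_div_iff₀ (by positivity) (by positivity)]
    calc 4 * (d : ℝ) * (4 * d * Real.sin (π / (2 * d) / 2) ^ 2)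
        ≤ 4 * d * (4 * d * (π / (2 * d) / 2) ^ 2) := by gcongr
      _ = 1 * π ^ 2 := by field_simp; ring
  have hdef : level1 f ≤ d - w * (2 - 2 * (2 * √2 / 3)) := by
    have := mul_le_mul_of_nonneg_left hdiff hwpos.le
    linarith
  have hs : √2 < 14142136 / 10000000 := by
    rw [Real.sqrt_lt' (by norm_num)]; norm_num
  have hgain : (d : ℝ) / 22 ≤ w * (2 - 2 * (2 * √2 / 3)) := by
    refine le_trans ?_ (mul_le_mul hwlow
      (show (2 - 2 * (2 * (14142136 / 10000000 : ℝ) / 3)) ≤ 2 - 2 * (2 * √2 / 3) by linarith)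
      (by norm_num) hwpos.le)
    have hπ : π < 3.141593 := Real.pi_lt_d6
    have hπ2 : π ^ 2 ≤ 3.141593 ^ 2 := by nlinarith [Real.pi_pos]
    rw [div_mul_eq_mul_div, div_le_div_iff₀ (by norm_num) (by positivity)]
    nlinarith
  linarith

end Vale.Agent.P047
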