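import Vale.Agent.P047.Basic
import Mathlib.Logic.Equiv.Fin.Basic
import Mathlib.Data.Fintype.BigOperators
import Mathlib.Analysis.Real.Sqrt
import Mathlib.Analysis.SpecificLimits.Basic

/-!
Composition and oddification of Boolean functions.
-/

namespace Vale.Agent.P047

open Finset

variable {n m : ℕ}

lemma sum_chi (A : Finset (Fin n)) :
    ∑ x : Cube n, chi A x = if A = ∅ then 2 ^ n else 0 := by
  classical
  have h : ∑ x : Cube n, chi A x = ∏ i : Fin n, ∑ b : Bool, if i ∈ A then sgn b else 1 := by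
    rw [Fintype.prod_sum]
    exact Finset.sum_congr rfl fun x _ => by rw [chi, Finset.prod_ite_mem, Finset.univ_inter]
  rw [h]
  split_ifs with hA
  · subst hA; simp
  · obtain ⟨i, hi⟩ := Finset.nonempty_iff_ne_empty.2 hA
    exact Finset.prod_eq_zero (Finset.mem_univ i) (by simp [hi, sgn])

lemma fourier_inversion (f : Cube n → ℝ) (y : Cube n) : ∑ T, fhat f T * chi T y = f y := by
  classical
  have key : ∀ x : Cube n, ∑ T, chi T x * chi T y = if x = y then (2 : ℝ) ^ n else 0 := by
    intro x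
    have h : ∑ T, chi T x * chi T y = ∏ i, (1 + sgn (x i) * sgn (y i)) := by
      rw [Finset.prod_one_add, Finset.powerset_univ]
      exact Finset.sum_congr rfl fun T _ => (Finset.prod_mul_distrib).symm
    rw [h]
    split_ifs with hxy
    · subst hxy; simp [sgn_mul_self]; norm_num
    · obtain ⟨i, hi⟩ := Function.ne_iff.1 hxy
      refine Finset.prod_eq_zero (Finset.mem_univ i) ?_
      cases hx : x i <;> cases hy : y i <;> simp_all [sgn]
  calc ∑ T, fhat f T * chi T y = (∑ x, f x * ∑ T, chi T x * chi T y) / 2 ^ n := by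
        simp only [fhat, Finset.mul_sum, Finset.sum_div, Finset.sum_mul]
        rw [Finset.sum_comm]
        exact Finset.sum_congr rfl fun T _ => Finset.sum_congr rfl fun x _ => by ring
    _ = f y := by simp [key]

/-- A function taking values in `{-1, 1}`. -/
def IsBool (f : Cube n → ℝ) : Prop := ∀ x, f x = 1 ∨ f x = -1

/-- The coordinates of `x` in block `i`. -/
def block (x : Cube (n * m)) (i : Fin n) : Cube m := fun j => x (finProdFinEquiv (i, j))

/-- The part of `S` in block `i`. -/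
def part (S : Finset (Fin (n * m))) (i : Fin n) : Finset (Fin m) :=
  univ.filter fun j => finProdFinEquiv (i, j) ∈ S

/-- The composition of `f` with `n` disjoint copies of `g`. -/
noncomputable def comp (f : Cube n → ℝ) (g : Cube m → ℝ) : Cube (n * m) → ℝ :=
  fun x => f fun i => decide (0 < g (block x i))

lemma chi_block (S : Finset (Fin (n * m))) (x : Cube (n * m)) :
    chi S x = ∏ i, chi (part S i) (block x i) := by
  classical
  simp only [chi, part, block, Finset.prod_filter]
  rw [← Fintype.prod_prod_type', (finProdFinEquiv).prod_comp fun k => if k ∈ S then sgn (x k) else 1,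
    Finset.prod_ite_mem, Finset.univ_inter]

lemma card_part (S : Finset (Fin (n * m))) : S.card = ∑ i, (part S i).card := by
  classical
  simp only [part, Finset.card_filter]
  rw [← Fintype.sum_prod_type', (finProdFinEquiv).sum_comp fun k => if k ∈ S then 1 else 0]
  simp

lemma comp_isBool {f : Cube n → ℝ} (hf : IsBool f) (g : Cube m → ℝ) : IsBool (comp f g) :=
  fun _ => hf _

lemma fhat_comp (f : Cube n → ℝ) {g : Cube m → ℝ} (hg : IsBool g) (S : Finset (Fin (n * m))) :
    fhat (comp f g) S = ∑ T, fhat f T *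
      ∏ i, if i ∈ T then fhat g (part S i) else if part S i = ∅ then 1 else 0 := by
  classical
  let eC : (Fin (n * m) → Bool) ≃ (Fin n → Fin m → Bool) :=
    (finProdFinEquiv.arrowCongr (Equiv.refl Bool)).symm.trans (Equiv.curry _ _ _)
  have heC : ∀ x i, eC x i = block x i := fun x i => rfl
  have hsgn : ∀ z, sgn (decide (0 < g z)) = g z := fun z => by
    rcases hg z with h | h <;> simp [h, sgn]
  have hexp : ∀ x, comp f g x * chi S x
      = ∑ T, fhat f T * ∏ i, ((if i ∈ T then g (block x i) else 1) * chi (part S i) (block x i)) := by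
    intro x
    rw [comp, ← fourier_inversion f, Finset.sum_mul, chi_block]
    refine Finset.sum_congr rfl fun T _ => ?_
    rw [Finset.prod_mul_distrib, Finset.prod_ite_mem, Finset.univ_inter, chi, mul_assoc]
    simp [hsgn]
  rw [fhat, Finset.sum_congr rfl fun x _ => hexp x, Finset.sum_comm, Finset.sum_div]
  refine Finset.sum_congr rfl fun T _ => ?_
  rw [← Finset.mul_sum, mul_div_assoc]
  congr 1
  rw [show (2 : ℝ) ^ (n * m) = ∏ _i : Fin n, (2 : ℝ) ^ m by
    simp [← pow_mul, mul_comm]]
  rw [Fintype.sum_equiv eC _ (fun z => ∏ i, ((if i ∈ T then g (z i) else 1) * chi (part S i) (z i)))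
    (fun x => by simp [heC]),
    ← Fintype.prod_sum fun i (w : Cube m) => (if i ∈ T then g w else 1) * chi (part S i) w,
    ← Finset.prod_div_distrib]
  refine Finset.prod_congr rfl fun i _ => ?_
  by_cases hi : i ∈ T
  · simp [hi, fhat]
  · simp only [hi, if_false, one_mul, sum_chi]
    split_ifs <;> simp

lemma degLE_comp {f : Cube n → ℝ} {g : Cube m → ℝ} (hg : IsBool g) {a b : ℕ} (hf : DegLE f a)
    (hb : DegLE g b) : DegLE (comp f g) (a * b) := by
  classical
  intro S hS
  rw [fhat_comp f hg]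
  refine Finset.sum_eq_zero fun T _ => ?_
  by_cases hT : a < T.card
  · rw [hf T hT, zero_mul]
  rw [mul_eq_zero]
  right
  by_contra h
  replace h := Finset.prod_ne_zero_iff.1 h
  have hle : ∀ i, (part S i).card ≤ if i ∈ T then b else 0 := fun i => by
    have hi := h i (Finset.mem_univ i)
    split_ifs at hi ⊢ with h1 h2
    · exact le_of_not_gt fun h' => hi (hb _ h')
    · simp [h2]
    · exact absurd rfl hi
  have : S.card ≤ T.card * b := by
    rw [card_part]
    refine (Finset.sum_le_sum fun i _ => hle i).trans ?_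
    simp
  have := this.trans (Nat.mul_le_mul_right b (not_lt.1 hT))
  omega

lemma fhat_comp_of_balanced (f : Cube n → ℝ) {g : Cube m → ℝ} (hg : IsBool g)
    (h0 : fhat g ∅ = 0) (S : Finset (Fin (n * m))) :
    fhat (comp f g) S = fhat f (univ.filter fun i => part S i ≠ ∅) *
      ∏ i ∈ univ.filter (fun i => part S i ≠ ∅), fhat g (part S i) := by
  classical
  rw [fhat_comp f hg, Finset.sum_eq_single (univ.filter fun i => part S i ≠ ∅)]
  · congr 1
    rw [Finset.prod_filter]
    refine Finset.prod_congr rfl fun i _ => ?_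
    by_cases h : part S i = ∅ <;> simp [h]
  · intro T _ hT
    obtain ⟨i, hi⟩ : ∃ i, ¬(i ∈ T ↔ part S i ≠ ∅) := by
      by_contra hcon
      exact hT (Finset.ext fun i => by
        simp only [Finset.mem_filter, Finset.mem_univ, true_and]
        exact not_not.1 (not_exists.1 hcon i))
    refine mul_eq_zero.2 (Or.inr (Finset.prod_eq_zero (Finset.mem_univ i) ?_))
    by_cases h : part S i = ∅ <;> simp_all
  · simp

lemma level1_comp (f : Cube n → ℝ) {g : Cube m → ℝ} (hg : IsBool g) (h0 : fhat g ∅ = 0) :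
    level1 (comp f g) = level1 f * level1 g := by
  classical
  rw [level1, ← (finProdFinEquiv (m := n) (n := m)).sum_comp, Fintype.sum_prod_type, level1,
    level1, Finset.sum_mul]
  refine Finset.sum_congr rfl fun i _ => ?_
  rw [Finset.mul_sum]
  refine Finset.sum_congr rfl fun j _ => ?_
  have hp : ∀ k, part ({finProdFinEquiv (i, j)} : Finset (Fin (n * m))) k
      = if k = i then {j} else ∅ := fun k => by
    ext l
    by_cases hk : k = i <;> simp [part, hk]
  rw [fhat_comp_of_balanced f hg h0,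
    show (univ.filter fun k => part ({finProdFinEquiv (i, j)} : Finset (Fin (n * m))) k ≠ ∅) = {i}
      by ext k; by_cases hk : k = i <;> simp [hp, hk]]
  simp [hp]

lemma balanced_comp {f : Cube n → ℝ} {g : Cube m → ℝ} (hg : IsBool g) (h0 : fhat g ∅ = 0)
    (hf0 : fhat f ∅ = 0) : fhat (comp f g) ∅ = 0 := by
  classical
  rw [fhat_comp_of_balanced f hg h0]
  have : (univ.filter fun i => part (∅ : Finset (Fin (n * m))) i ≠ ∅) = ∅ := by
    ext i; simp [part]
  rw [this, hf0, zero_mul]

/-- Iterated composition. -/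
lemma exists_power {f : Cube n → ℝ} {d : ℕ} (hf : IsBool f) (hd : DegLE f d)
    (h0 : fhat f ∅ = 0) (k : ℕ) :
    ∃ (N : ℕ) (F : Cube N → ℝ),
      IsBool F ∧ DegLE F (d ^ (k + 1)) ∧ fhat F ∅ = 0 ∧ level1 F = level1 f ^ (k + 1) := by
  induction k with
  | zero => exact ⟨n, f, hf, by simpa using hd, h0, by simp⟩
  | succ k ih =>
    obtain ⟨N, F, hF, hFd, hF0, hFL⟩ := ih
    refine ⟨N * n, comp F f, comp_isBool hF f, ?_, balanced_comp hf h0 hF0, ?_⟩
    · rw [pow_succ]; exact degLE_comp hf hFd hd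
    · rw [level1_comp F hf h0, hFL, pow_succ _ (k + 1)]

/-- The odd extension of `f` to one more variable. -/
def oddExt (c : Bool) (f : Cube n → ℝ) : Cube (n + 1) → ℝ :=
  fun z => sgn (z 0 == c) * f fun i => if z 0 == c then z i.succ else !z i.succ

lemma oddExt_isBool {f : Cube n → ℝ} (hf : IsBool f) (c : Bool) : IsBool (oddExt c f) := by
  intro z
  rcases hf fun i => if z 0 == c then z i.succ else !z i.succ with h | h <;>
    cases hb : (z 0 == c) <;> simp [oddExt, hb, sgn] at h ⊢ <;> simp [h]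

lemma fhat_oddExt (c : Bool) (f : Cube n → ℝ) (S : Finset (Fin (n + 1))) :
    fhat (oddExt c f) S = fhat f (univ.filter fun i : Fin n => i.succ ∈ S) *
      ((if (0 : Fin (n + 1)) ∈ S then sgn c else 1) - (if (0 : Fin (n + 1)) ∈ S then -sgn c else 1) *
        (-1) ^ (univ.filter fun i : Fin n => i.succ ∈ S).card) / 2 := by
  classical
  set S' := univ.filter fun i : Fin n => i.succ ∈ S
  have hchi : ∀ (b : Bool) (x : Cube n), chi S (Fin.cons b x)
      = (if (0 : Fin (n + 1)) ∈ S then sgn b else 1) * chi S' x := fun b x => by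
    calc chi S (Fin.cons b x)
        = ∏ k : Fin (n + 1), if k ∈ S then sgn ((Fin.cons b x : Cube (n + 1)) k) else 1 := by
          rw [chi, Finset.prod_ite_mem, Finset.univ_inter]
      _ = _ := by rw [Fin.prod_univ_succ, chi, Finset.prod_filter]; simp
  have hflip : Function.Involutive fun (x : Cube n) i => !x i := fun x => by simp
  have hneg : ∑ x : Cube n, f (fun i => !x i) * chi S' x
      = (-1) ^ S'.card * ∑ x : Cube n, f x * chi S' x := by
    rw [Finset.mul_sum, ← hflip.bijective.sum_comp]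
    refine Finset.sum_congr rfl fun x _ => ?_
    simp only [Bool.not_not, chi, sgn_not]
    rw [Finset.prod_neg]
    ring
  have hcons : ∀ (b : Bool) (x : Cube n),
      (Fin.consEquiv fun _ => Bool) (b, x) = (Fin.cons b x : Cube (n + 1)) := fun _ _ => rfl
  have hval : ∀ (b : Bool) (x : Cube n), oddExt c f (Fin.cons b x)
      = sgn (b == c) * f (fun i => if b == c then x i else !x i) := fun b x => by
    simp [oddExt]
  rw [fhat, ← (Fin.consEquiv fun _ => Bool).sum_comp, Fintype.sum_prod_type, Fintype.sum_bool]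
  simp only [hcons, hval, hchi]
  have hp : (2 : ℝ) ^ n ≠ 0 := by positivity
  rw [fhat, pow_succ]
  have e : ∀ (u : ℝ) (F : Cube n → ℝ),
      ∑ x, u * F x * chi S' x = u * ∑ x, F x * chi S' x := fun u F => by
    rw [Finset.mul_sum]; exact Finset.sum_congr rfl fun x _ => by ring
  have e' : ∀ (u v : ℝ) (F : Cube n → ℝ),
      ∑ x, u * F x * (v * chi S' x) = u * v * ∑ x, F x * chi S' x := fun u v F => by
    rw [Finset.mul_sum]; exact Finset.sum_congr rfl fun x _ => by ring
  rw [e', e']
  cases c <;> simp [sgn, hneg] <;> field_simp <;> split_ifs <;> ring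

lemma degLE_oddExt {f : Cube n → ℝ} {d : ℕ} (hd : DegLE f d) (c : Bool) :
    DegLE (oddExt c f) (d + 1) := by
  classical
  intro S hS
  rw [fhat_oddExt, hd, zero_mul, zero_div]
  have h : S ⊆ insert 0 ((univ.filter fun i : Fin n => i.succ ∈ S).map (Fin.succEmb n)) :=
    fun k hk => by
      refine Fin.cases (fun _ => Finset.mem_insert_self _ _) (fun j hj => ?_) k hk
      exact Finset.mem_insert_of_mem (Finset.mem_map.2 ⟨j, by simpa using hj, rfl⟩)
  have := (Finset.card_le_card h).trans (Finset.card_insert_le _ _)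
  rw [Finset.card_map] at this
  omega

lemma balanced_oddExt (f : Cube n → ℝ) (c : Bool) : fhat (oddExt c f) ∅ = 0 := by
  rw [fhat_oddExt]; simp

lemma level1_le_oddExt (f : Cube n → ℝ) : ∃ c, level1 f ≤ level1 (oddExt c f) := by
  classical
  refine ⟨decide (0 ≤ fhat f ∅), ?_⟩
  rw [level1, level1, Fin.sum_univ_succ]
  have h0 : fhat (oddExt (decide (0 ≤ fhat f ∅)) f) {0}
      = sgn (decide (0 ≤ fhat f ∅)) * fhat f ∅ := by
    rw [fhat_oddExt, show (univ.filter fun i : Fin n => i.succ ∈ ({0} : Finset (Fin (n + 1)))) = ∅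
      by ext i; simp [Fin.succ_ne_zero]]
    simp; ring
  have hs : ∀ i : Fin n, fhat (oddExt (decide (0 ≤ fhat f ∅)) f) {i.succ} = fhat f {i} := fun i => by
    rw [fhat_oddExt, show (univ.filter fun j : Fin n => j.succ ∈ ({i.succ} : Finset (Fin (n + 1))))
      = {i} by ext j; simp]
    simp [(Fin.succ_ne_zero i).symm]
    ring
  rw [h0]
  simp only [hs]
  have hnn : 0 ≤ sgn (decide (0 ≤ fhat f ∅)) * fhat f ∅ := by
    by_cases h : 0 ≤ fhat f ∅ <;> simp [h, sgn]
    exact le_of_not_ge h
  linarith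

theorem forms_tfae :
    ((∃ C : ℝ, ∀ (n : ℕ) (f : Cube n → ℝ) (d : ℕ), IsBool f → DegLE f d → level1 f ≤ C * √d) ↔
      ∀ (n : ℕ) (f : Cube n → ℝ) (d : ℕ), IsBool f → DegLE f d → fhat f ∅ = 0 → level1 f ≤ √d) ∧
    ((∀ (n : ℕ) (f : Cube n → ℝ) (d : ℕ), IsBool f → DegLE f d → fhat f ∅ = 0 → level1 f ≤ √d) ↔
      ∀ (n : ℕ) (f : Cube n → ℝ) (d : ℕ), IsBool f → DegLE f d → level1 f ≤ √(d + 1 : ℕ)) := by
  have hzero : ∀ (n : ℕ) (f : Cube n → ℝ), DegLE f 0 → level1 f = 0 := fun n f hd =>
    Finset.sum_eq_zero fun i _ => hd _ (by simp)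
  have hweak : (∃ C : ℝ, ∀ (n : ℕ) (f : Cube n → ℝ) (d : ℕ),
      IsBool f → DegLE f d → level1 f ≤ C * √d) →
      ∀ (n : ℕ) (f : Cube n → ℝ) (d : ℕ), IsBool f → DegLE f d → fhat f ∅ = 0 →
        level1 f ≤ √d := by
    rintro ⟨C, hC⟩ n f d hf hd h0
    rcases Nat.eq_zero_or_pos d with rfl | hdpos
    · rw [hzero n f hd]; simp
    by_contra h
    push Not at h
    have hs : 0 < √(d : ℝ) := Real.sqrt_pos.2 (by exact_mod_cast hdpos)
    obtain ⟨k, hk⟩ := pow_unbounded_of_one_lt C ((one_lt_div hs).2 h)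
    obtain ⟨N, F, hF, hFd, -, hFL⟩ := exists_power hf hd h0 k
    have h1 := hC N F _ hF hFd
    rw [hFL, Nat.cast_pow, Real.sqrt_eq_iff_mul_self_eq_of_pos
      (pow_pos hs (k + 1)) |>.2 (by rw [← mul_pow, Real.mul_self_sqrt (Nat.cast_nonneg d)]),
      ← div_le_iff₀ (pow_pos hs _), ← div_pow] at h1
    have h2 : (level1 f / √(d : ℝ)) ^ k ≤ (level1 f / √(d : ℝ)) ^ (k + 1) :=
      pow_le_pow_right₀ ((one_le_div hs).2 h.le) (Nat.le_succ k)
    linarith
  have hodd : (∀ (n : ℕ) (f : Cube n → ℝ) (d : ℕ), IsBool f → DegLE f d → fhat f ∅ = 0 →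
      level1 f ≤ √d) → ∀ (n : ℕ) (f : Cube n → ℝ) (d : ℕ), IsBool f → DegLE f d →
        level1 f ≤ √(d + 1 : ℕ) := by
    intro H n f d hf hd
    obtain ⟨c, hc⟩ := level1_le_oddExt f
    exact hc.trans (H _ _ _ (oddExt_isBool hf c) (degLE_oddExt hd c) (balanced_oddExt f c))
  have hback : (∀ (n : ℕ) (f : Cube n → ℝ) (d : ℕ), IsBool f → DegLE f d →
      level1 f ≤ √(d + 1 : ℕ)) → ∃ C : ℝ, ∀ (n : ℕ) (f : Cube n → ℝ) (d : ℕ),
        IsBool f → DegLE f d → level1 f ≤ C * √d := by
    intro H
    refine ⟨√2, fun n f d hf hd => ?_⟩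
    rcases Nat.eq_zero_or_pos d with rfl | hdpos
    · rw [hzero n f hd]; simp
    refine (H n f d hf hd).trans ?_
    rw [← Real.sqrt_mul (by norm_num : (0 : ℝ) ≤ 2)]
    refine Real.sqrt_le_sqrt ?_
    have : (1 : ℝ) ≤ d := by exact_mod_cast hdpos
    push_cast
    linarith
  exact ⟨⟨hweak, fun H => hback (hodd H)⟩, ⟨hodd, fun H => hweak (hback H)⟩⟩

end Vale.Agent.P047
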