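import Vale.Agent.P047.Basic
import Mathlib.Algebra.Order.Ring.Abs

/-!
The biased total influence of a Boolean function bounds the derivative of its biased mean.
-/

namespace Vale.Agent.P047

variable {n : ℕ}

/-- Flip the coordinate `i`. -/
def flipAt (i : Fin n) (x : Cube n) : Cube n := Function.update x i (!x i)

lemma flipAt_invol (i : Fin n) : Function.Involutive (flipAt i) := fun x => by
  funext j
  rcases eq_or_ne j i with rfl | h <;> simp [flipAt, *]

/-- The derivative in direction `i`. -/
noncomputable def dlt (i : Fin n) (f : Cube n → ℝ) (x : Cube n) : ℝ :=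
  sgn (x i) * (f x - f (flipAt i x)) / 2

lemma sum_dlt_mul (i : Fin n) (f F : Cube n → ℝ) :
    ∑ x, dlt i f x * F x = ∑ x, f x * (sgn (x i) * (F x + F (flipAt i x)) / 2) := by
  have h : ∑ x, sgn (x i) * f (flipAt i x) * F x = -∑ x, sgn (x i) * f x * F (flipAt i x) := by
    rw [← (flipAt_invol i).bijective.sum_comp, ← Finset.sum_neg_distrib]
    refine Finset.sum_congr rfl fun x _ => ?_
    rw [flipAt_invol i x, flipAt, Function.update_self, sgn_not]
    ring
  calc ∑ x, dlt i f x * F x
      = (∑ x, sgn (x i) * f x * F x - ∑ x, sgn (x i) * f (flipAt i x) * F x) / 2 := by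
        rw [← Finset.sum_sub_distrib, Finset.sum_div]
        exact Finset.sum_congr rfl fun x _ => by unfold dlt; ring
    _ = _ := by
        rw [h, sub_neg_eq_add, ← Finset.sum_add_distrib, Finset.sum_div]
        exact Finset.sum_congr rfl fun x _ => by ring

lemma bcoef_dlt (i : Fin n) (f : Cube n → ℝ) (r : ℝ) (S : Finset (Fin n)) :
    bcoef (dlt i f) r S = if i ∈ S then 0 else bcoef f r (insert i S) := by
  classical
  unfold bcoef
  rw [sum_dlt_mul]
  split_ifs with hi
  · refine (div_eq_zero_iff.2 (Or.inl (Finset.sum_eq_zero fun x _ => ?_)))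
    have h1 : ∏ j ∈ Sᶜ, (1 + r * sgn (flipAt i x j)) = ∏ j ∈ Sᶜ, (1 + r * sgn (x j)) :=
      Finset.prod_congr rfl fun j hj => by
        rw [flipAt, Function.update_of_ne (by rintro rfl; exact Finset.mem_compl.1 hj hi)]
    have h2 : ∏ j ∈ S, sgn (flipAt i x j) = -∏ j ∈ S, sgn (x j) := by
      rw [← Finset.mul_prod_erase _ _ hi, ← Finset.mul_prod_erase S (fun j => sgn (x j)) hi,
        ← neg_mul]
      congr 1
      · rw [flipAt, Function.update_self, sgn_not]
      · exact Finset.prod_congr rfl fun j hj => by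
          rw [flipAt, Function.update_of_ne (Finset.ne_of_mem_erase hj)]
    rw [h1, h2]
    ring
  · congr 1
    refine Finset.sum_congr rfl fun x _ => ?_
    have hc : i ∈ Sᶜ := Finset.mem_compl.2 hi
    have h2 : ∏ j ∈ S, sgn (flipAt i x j) = ∏ j ∈ S, sgn (x j) :=
      Finset.prod_congr rfl fun j hj => by
        rw [flipAt, Function.update_of_ne (by rintro rfl; exact hi hj)]
    have h1 : ∏ j ∈ Sᶜ.erase i, (1 + r * sgn (flipAt i x j))
        = ∏ j ∈ Sᶜ.erase i, (1 + r * sgn (x j)) :=
      Finset.prod_congr rfl fun j hj => by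
        rw [flipAt, Function.update_of_ne (Finset.ne_of_mem_erase hj)]
    rw [h2, ← Finset.mul_prod_erase _ _ hc,
      ← Finset.mul_prod_erase Sᶜ (fun j => 1 + r * sgn (flipAt i x j)) hc, h1,
      Finset.compl_insert, Finset.prod_insert hi]
    simp only [flipAt, Function.update_self, sgn_not]
    ring

lemma abs_dlt_le {i : Fin n} {f : Cube n → ℝ} (hf : ∀ x, f x = 1 ∨ f x = -1) (x : Cube n) :
    |dlt i f x| ≤ dlt i f x ^ 2 := by
  unfold dlt
  rcases hf x with h | h <;> rcases hf (flipAt i x) with h' | h' <;> cases x i <;>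
    norm_num [h, h', sgn]

lemma abs_bias_le {f : Cube n → ℝ} (hf : ∀ x, f x = 1 ∨ f x = -1) {r : ℝ} (hr : -1 ≤ r)
    (hr' : r ≤ 1) : |bias f r| ≤ 1 := by
  refine ((Finset.abs_sum_le_sum_abs _ _).trans (Finset.sum_le_sum fun x _ => ?_)).trans_eq
    (weight_sum (n := n) r)
  rw [abs_mul, abs_of_nonneg (Finset.prod_nonneg fun i _ => by cases x i <;> simp [sgn] <;> linarith)]
  rcases hf x with h | h <;> simp [h]

/-- The biased mean of a Boolean function of degree at most `d` grows slower than the hyperbolic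
tangent. -/
lemma deriv_bias_le {f : Cube n → ℝ} {d : ℕ} (hd : DegLE f d) (hf : ∀ x, f x = 1 ∨ f x = -1)
    {r : ℝ} (hr : -1 < r) (hr' : r < 1) :
    (1 - r ^ 2) * ∑ i, bcoef f r {i} ≤ d * (1 - bias f r ^ 2) := by
  classical
  have hs : 0 ≤ 1 - r ^ 2 := by nlinarith
  set q : Finset (Fin n) → ℝ := fun S => (1 - r ^ 2) ^ S.card * bcoef f r S ^ 2
  have hq : ∀ S, 0 ≤ q S := fun S => mul_nonneg (pow_nonneg hs _) (sq_nonneg _)
  have hi : ∀ i, (1 - r ^ 2) * bcoef f r {i} ≤ ∑ S, if i ∈ S then q S else 0 := by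
    intro i
    have h1 : bcoef f r {i} = bias (dlt i f) r := by rw [← bcoef_empty, bcoef_dlt]; simp
    have h2 : bias (dlt i f) r
        ≤ ∑ S : Finset (Fin n), (1 - r ^ 2) ^ S.card * bcoef (dlt i f) r S ^ 2 := by
      rw [parseval]
      exact Finset.sum_le_sum fun x _ => mul_le_mul_of_nonneg_left
        ((le_abs_self _).trans (abs_dlt_le hf x)) (weight_pos hr hr' x).le
    rw [← h1] at h2
    refine (mul_le_mul_of_nonneg_left h2 hs).trans (le_of_eq ?_)
    simp only [bcoef_dlt, Finset.mul_sum, ite_pow, mul_ite, zero_pow two_ne_zero, mul_zero]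
    rw [Finset.sum_ite, Finset.sum_const_zero, zero_add, ← Finset.sum_filter]
    refine Finset.sum_bij' (fun S _ => insert i S) (fun S _ => S.erase i) ?_ ?_ ?_ ?_ ?_
    · intro S _; simp
    · intro S _; simp
    · intro S hS; exact Finset.erase_insert (Finset.mem_filter.1 hS).2
    · intro S hS; exact Finset.insert_erase (Finset.mem_filter.1 hS).2
    · intro S hS
      simp only [q, Finset.card_insert_of_notMem (Finset.mem_filter.1 hS).2, pow_succ']
      ring
  rw [Finset.mul_sum]
  refine (Finset.sum_le_sum fun i _ => hi i).trans ?_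
  rw [Finset.sum_comm]
  have htot : ∑ S, q S = 1 := by
    simp only [q, parseval]
    refine Eq.trans ?_ (weight_sum (n := n) r)
    exact Finset.sum_congr rfl fun x _ => by rcases hf x with h | h <;> simp [h]
  have hsplit : ∑ S, q S = bias f r ^ 2 + ∑ S ∈ Finset.univ.erase ∅, q S := by
    rw [← Finset.add_sum_erase _ _ (Finset.mem_univ (∅ : Finset (Fin n)))]
    simp [q, bcoef_empty]
  calc ∑ S : Finset (Fin n), ∑ i, (if i ∈ S then q S else 0)
      = ∑ S : Finset (Fin n), (S.card : ℝ) * q S := by simp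
    _ = ∑ S ∈ Finset.univ.erase (∅ : Finset (Fin n)), (S.card : ℝ) * q S :=
        (Finset.sum_erase _ (by simp)).symm
    _ ≤ ∑ S ∈ Finset.univ.erase (∅ : Finset (Fin n)), (d : ℝ) * q S := by
        refine Finset.sum_le_sum fun S _ => ?_
        rcases le_or_gt S.card d with h | h
        · exact mul_le_mul_of_nonneg_right (by exact_mod_cast h) (hq S)
        · simp [q, bcoef_eq_zero hd r h]
    _ = _ := by rw [← Finset.mul_sum]; congr 1; linarith

/-- A Boolean function whose biased mean reaches `1` or `-1` inside the interval is constant. -/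
lemma level1_of_extreme {f : Cube n → ℝ} (hf : ∀ x, f x = 1 ∨ f x = -1) {r : ℝ} (hr : -1 < r)
    (hr' : r < 1) (h : |bias f r| = 1) : level1 f = 0 := by
  obtain ⟨c, hc⟩ : ∃ c : ℝ, ∀ x, f x = c := by
    rcases abs_eq (zero_le_one' ℝ) |>.1 h with h1 | h1
    · refine ⟨1, fun x => ?_⟩
      have h0 : ∑ x, (∏ i, (1 + r * sgn (x i)) / 2) * (1 - f x) = 0 := by
        simp only [mul_sub, mul_one, Finset.sum_sub_distrib, weight_sum]
        exact sub_eq_zero.2 h1.symm
      have := (Finset.sum_eq_zero_iff_of_nonneg fun x _ => mul_nonneg (weight_pos hr hr' x).le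
        (by rcases hf x with h | h <;> simp [h])).1 h0 x (Finset.mem_univ x)
      linarith [(mul_eq_zero.1 this).resolve_left (weight_pos hr hr' x).ne']
    · refine ⟨-1, fun x => ?_⟩
      have h0 : ∑ x, (∏ i, (1 + r * sgn (x i)) / 2) * (1 + f x) = 0 := by
        simp only [mul_add, mul_one, Finset.sum_add_distrib, weight_sum]
        rw [show ∑ x, (∏ i, (1 + r * sgn (x i)) / 2) * f x = -1 from h1]
        norm_num
      have := (Finset.sum_eq_zero_iff_of_nonneg fun x _ => mul_nonneg (weight_pos hr hr' x).le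
        (by rcases hf x with h | h <;> simp [h])).1 h0 x (Finset.mem_univ x)
      linarith [(mul_eq_zero.1 this).resolve_left (weight_pos hr hr' x).ne']
  refine Finset.sum_eq_zero fun i _ => div_eq_zero_iff.2 (Or.inl ?_)
  have := (flipAt_invol i).bijective.sum_comp fun x => f x * chi {i} x
  simp only [chi, Finset.prod_singleton, hc, flipAt, Function.update_self, sgn_not, mul_neg,
    Finset.sum_neg_distrib] at this
  simp only [chi, Finset.prod_singleton, hc]
  linarith

end Vale.Agent.P047
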